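import Mathlib.Analysis.SpecialFunctions.Stirling
import Mathlib.Analysis.SpecialFunctions.Pow.Asymptotics
import Mathlib.Analysis.Complex.ExponentialBounds

/-! P254: the isotropic constants of simplices increase to the inverse of the Euler number. -/

set_option linter.all false

open Filter Topology Real

namespace Vale.Agent.N254B

/-- the value of `det Σ / vol²` for a simplex -/
noncomputable def rn (n : ℕ) : ℝ :=
  (n.factorial : ℝ) ^ 2 / (((n : ℝ) + 1) * (((n : ℝ) + 1) * (n + 2)) ^ n)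

theorem rn_pos (n : ℕ) : 0 < rn n := by unfold rn; positivity

theorem fact_le {n : ℕ} (hn : 1 ≤ n) :
    (n.factorial : ℝ) ^ 2 ≤ exp 1 ^ 2 * n * (n / exp 1) ^ (2 * n) := by
  obtain ⟨m, rfl⟩ : ∃ m, n = m + 1 := ⟨n - 1, by omega⟩
  have h := Stirling.stirlingSeq'_antitone (Nat.zero_le m)
  simp only [Function.comp, Nat.succ_eq_add_one, zero_add, Stirling.stirlingSeq_one] at h
  rw [Stirling.stirlingSeq, div_le_iff₀ (by positivity)] at h
  refine (pow_le_pow_left₀ (by positivity) h 2).trans (le_of_eq ?_)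
  rw [mul_pow, mul_pow, div_pow, sq_sqrt (by positivity), sq_sqrt (by positivity), ← pow_mul,
    mul_comm (m + 1) 2]
  ring

theorem rn_lt {n : ℕ} (hn : 1 ≤ n) : rn n < exp (-1) ^ (2 * n) := by
  have hn0 : (0 : ℝ) < n := by exact_mod_cast hn
  have h1 : exp 1 * (n : ℝ) ^ (n + 1) ≤ ((n : ℝ) + 1) ^ (n + 1) := by
    have h := one_sub_div_pow_le_exp_neg (n := n + 1) (t := 1) (by push_cast; linarith)
    have e : (1 - 1 / ((n + 1 : ℕ) : ℝ)) = n / (n + 1) := by push_cast; field_simp; ring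
    rw [e, div_pow, div_le_iff₀ (by positivity), exp_neg, ← div_eq_inv_mul,
      le_div_iff₀ (exp_pos 1)] at h
    linarith
  have h2 : 3 * (n : ℝ) ^ n ≤ ((n : ℝ) + 2) ^ n := by
    have h := one_add_mul_le_pow (a := 2 / (n : ℝ)) (by
      have : 0 ≤ 2 / (n : ℝ) := by positivity
      linarith) n
    have e : (1 + 2 / (n : ℝ)) = (n + 2) / n := by field_simp
    rw [e, div_pow, le_div_iff₀ (by positivity), mul_div_cancel₀ _ hn0.ne'] at h
    linarith
  have h3 : exp 1 < 3 := exp_one_lt_d9.trans (by norm_num)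
  rw [rn, div_lt_iff₀ (by positivity)]
  refine (fact_le hn).trans_lt ?_
  have e1 : exp 1 ^ 2 * n * (n / exp 1) ^ (2 * n) =
      exp (-1) ^ (2 * n) * ((exp 1 * (n : ℝ) ^ (n + 1)) * (exp 1 * (n : ℝ) ^ n)) := by
    rw [exp_neg, div_eq_mul_inv, mul_pow]
    ring
  have e2 : ((n : ℝ) + 1) * (((n : ℝ) + 1) * (n + 2)) ^ n =
      ((n : ℝ) + 1) ^ (n + 1) * ((n : ℝ) + 2) ^ n := by
    rw [mul_pow]; ring
  rw [e1, e2]
  refine mul_lt_mul_of_pos_left ?_ (by positivity)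
  refine mul_lt_mul' h1 (lt_of_lt_of_le ?_ h2) (by positivity) (by positivity)
  exact mul_lt_mul_of_pos_right h3 (by positivity)

theorem root_pow {n : ℕ} (hn : 1 ≤ n) {x : ℝ} (hx : 0 ≤ x) :
    (x ^ (2 * n)) ^ (1 / (2 * (n : ℝ))) = x := by
  have hn0 : (0 : ℝ) < n := by exact_mod_cast hn
  rw [← rpow_natCast, ← rpow_mul hx]
  push_cast
  rw [mul_one_div_cancel (by positivity), rpow_one]

theorem pow_root {n : ℕ} (hn : 1 ≤ n) {x : ℝ} (hx : 0 ≤ x) :
    (x ^ (1 / (2 * (n : ℝ)))) ^ (2 * n) = x := by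
  have hn0 : (0 : ℝ) < n := by exact_mod_cast hn
  rw [← rpow_natCast, ← rpow_mul hx]
  push_cast
  rw [one_div_mul_cancel (by positivity), rpow_one]

theorem Ln_lt {n : ℕ} (hn : 1 ≤ n) : rn n ^ (1 / (2 * (n : ℝ))) < exp (-1) := by
  have hn0 : (0 : ℝ) < n := by exact_mod_cast hn
  rw [← root_pow hn (exp_pos (-1)).le]
  exact rpow_lt_rpow (rn_pos n).le (rn_lt hn) (by positivity)

theorem Ln_ge {n : ℕ} (hn : 1 ≤ n) :
    exp (-1) * (n / (n + 2)) * (((n : ℝ) + 2) ^ (1 / (2 * ((n : ℝ) + 2) + -4)))⁻¹ ≤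
      rn n ^ (1 / (2 * (n : ℝ))) := by
  have hn0 : (0 : ℝ) < n := by exact_mod_cast hn
  have e : 2 * ((n : ℝ) + 2) + -4 = 2 * n := by ring
  rw [e, ← root_pow hn (x := exp (-1) * (n / (n + 2))) (by positivity), ← inv_rpow (by positivity),
    ← mul_rpow (by positivity) (by positivity)]
  refine rpow_le_rpow (by positivity) ?_ (by positivity)
  have h1 : ((n : ℝ) * exp (-1)) ^ n ≤ n.factorial := by
    have h := pow_div_factorial_le_exp (n : ℝ) hn0.le n
    rw [div_le_iff₀ (by positivity)] at h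
    rw [mul_pow, ← exp_nat_mul, mul_neg, mul_one, exp_neg, ← div_eq_mul_inv,
      div_le_iff₀ (exp_pos _)]
    linarith
  have e1 : (exp (-1) * (n / (n + 2))) ^ (2 * n) * ((n : ℝ) + 2)⁻¹ =
      (((n : ℝ) * exp (-1)) ^ n) ^ 2 / (((n : ℝ) + 2) * (((n : ℝ) + 2) * (n + 2)) ^ n) := by
    rw [← pow_mul, mul_comm n 2, mul_pow, div_pow, mul_pow, ← sq, ← pow_mul]
    field_simp
  rw [e1, rn]
  gcongr <;> linarith

theorem exists_Ln {c : ℝ} (hc : c < exp (-1)) : ∃ n : ℕ, 1 ≤ n ∧ c < rn n ^ (1 / (2 * (n : ℝ))) := by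
  have h0 : Tendsto (fun n : ℕ => (n : ℝ) + 2) atTop atTop :=
    tendsto_atTop_add_const_right _ _ tendsto_natCast_atTop_atTop
  have h1 := ((tendsto_rpow_div_mul_add 1 2 (-4) (by norm_num)).comp h0).inv₀ one_ne_zero
  have h2 : Tendsto (fun n : ℕ => (n : ℝ) / (n + 2)) atTop (𝓝 1) :=
    tendsto_natCast_div_add_atTop (2 : ℝ)
  have h3 := (h2.const_mul (exp (-1))).mul h1
  rw [inv_one, mul_one, mul_one] at h3
  obtain ⟨n, hn1, hn2⟩ := ((h3.eventually (lt_mem_nhds hc)).and (eventually_ge_atTop 1)).exists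
  exact ⟨n, hn2, hn1.trans_le (Ln_ge hn2)⟩

end Vale.Agent.N254B
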