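import Vale.Agent.P254.Bdl.B2
import Vale.Agent.N254B.Const

/-! P254: second moments about a point of the body. -/

set_option linter.all false

open MeasureTheory Set Matrix Filter Topology

namespace Vale.Agent.N254B

open Vale.Agent.P254

variable {n : ℕ} {K : Set (Fin n → ℝ)}

theorem vol_pos (hK : IsConvexBody K) : 0 < (volume K).toReal :=
  ENNReal.toReal_pos ((isOpen_interior.measure_pos volume hK.2.2).trans_le
    (measure_mono interior_subset)).ne' hK.2.1.measure_ne_top

theorem quad_eq (hK : IsCompact K) (y : Fin n → ℝ) : y ⬝ᵥ (covMatrix K *ᵥ y) =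
    (volume K).toReal⁻¹ * ∫ x in K, (∑ i, y i * (x i - centroid K i)) ^ 2 := by
  rw [← cov_quad hK]
  simp only [dotProduct, mulVec, Finset.mul_sum]
  exact Finset.sum_congr rfl fun i _ => Finset.sum_congr rfl fun j _ => by ring

theorem cov_posDef (hU : IsConvexBody K) : (covMatrix K).PosDef := by
  have hc := hU.2.1
  refine PosDef.of_dotProduct_mulVec_pos (covMatrix_posSemidef hc).1 (fun y hy => ?_)
  rw [star_trivial, quad_eq hc]
  refine mul_pos (inv_pos.mpr (vol_pos hU)) ?_
  have hcont : Continuous fun x : Fin n → ℝ => (∑ i, y i * (x i - centroid K i)) ^ 2 := by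
    fun_prop
  rw [setIntegral_pos_iff_support_of_nonneg_ae (Filter.Eventually.of_forall fun x => sq_nonneg _)
    (intOn hc hcont)]
  have hO : IsOpen (interior K ∩ Function.support
      fun x : Fin n → ℝ => (∑ i, y i * (x i - centroid K i)) ^ 2) :=
    isOpen_interior.inter (hcont.isOpen_support)
  refine lt_of_lt_of_le (hO.measure_pos volume ?_)
    (measure_mono fun x hx => ⟨hx.2, interior_subset hx.1⟩)
  obtain ⟨x, hx⟩ := hU.2.2
  by_cases h0 : ∑ i, y i * (x i - centroid K i) = 0
  · have h1 : Tendsto (fun s : ℝ => x + s • y) (𝓝[>] 0) (𝓝 x) := by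
      have : Tendsto (fun s : ℝ => x + s • y) (𝓝 0) (𝓝 (x + (0 : ℝ) • y)) :=
        (by fun_prop : Continuous fun s : ℝ => x + s • y).tendsto 0
      rw [zero_smul, add_zero] at this
      exact this.mono_left nhdsWithin_le_nhds
    obtain ⟨s, hs, hs0⟩ :=
      ((h1.eventually (isOpen_interior.mem_nhds hx)).and self_mem_nhdsWithin).exists
    refine ⟨_, hs, ?_⟩
    rw [Function.mem_support]
    have e1 : ∑ i, y i * ((x + s • y) i - centroid K i) = s * ∑ i, y i ^ 2 := by
      rw [← zero_add (s * _), ← h0, Finset.mul_sum, ← Finset.sum_add_distrib]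
      refine Finset.sum_congr rfl fun i _ => ?_
      simp only [Pi.add_apply, Pi.smul_apply, smul_eq_mul]
      ring
    rw [e1]
    have h2 : 0 < ∑ i, y i ^ 2 := by
      obtain ⟨k, hk⟩ := Function.ne_iff.mp hy
      exact Finset.sum_pos' (fun i _ => sq_nonneg _)
        ⟨k, Finset.mem_univ _, by have : y k ≠ 0 := hk; positivity⟩
    have : (0 : ℝ) < s := hs0
    positivity
  · exact ⟨x, hx, by simpa [Function.mem_support] using h0⟩

theorem int_centred (hK : IsCompact K) (hV : (volume K).toReal ≠ 0) (i : Fin n) :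
    ∫ x in K, (x i - centroid K i) = 0 := by
  rw [integral_sub (intOn hK (by fun_prop)) (intOn hK (by fun_prop)), setIntegral_const, centroid]
  simp only [Measure.real, smul_eq_mul]
  field_simp
  ring

/-- second moments about `p` -/
noncomputable def mom (K : Set (Fin n → ℝ)) (p : Fin n → ℝ) : Matrix (Fin n) (Fin n) ℝ :=
  fun i j => (volume K).toReal⁻¹ * ∫ x in K, (x i - p i) * (x j - p j)

theorem mom_eq (hK : IsCompact K) (hV : (volume K).toReal ≠ 0) (p : Fin n → ℝ) :
    mom K p = covMatrix K + vecMulVec (centroid K - p) (centroid K - p) := by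
  ext i j
  have e : ∀ x : Fin n → ℝ, (x i - p i) * (x j - p j) =
      (x i - centroid K i) * (x j - centroid K j) + (centroid K j - p j) * (x i - centroid K i)
        + (centroid K i - p i) * (x j - centroid K j)
        + (centroid K i - p i) * (centroid K j - p j) := fun x => by ring
  simp only [mom]
  rw [funext e, integral_add (intOn hK (by fun_prop)) (intOn hK (by fun_prop)),
    integral_add (intOn hK (by fun_prop)) (intOn hK (by fun_prop)),
    integral_add (intOn hK (by fun_prop)) (intOn hK (by fun_prop)), integral_const_mul,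
    integral_const_mul, int_centred hK hV, int_centred hK hV, setIntegral_const]
  simp only [Matrix.add_apply, covMatrix, vecMulVec_apply, Pi.sub_apply, Measure.real, smul_eq_mul]
  field_simp
  ring

theorem det_add_rk {A : Matrix (Fin n) (Fin n) ℝ} {u d : Fin n → ℝ} (h : A *ᵥ u = d) :
    (A + vecMulVec d d).det = A.det * (1 + d ⬝ᵥ u) := by
  have e : A + vecMulVec d d = A * (1 + vecMulVec u d) := by
    rw [Matrix.mul_add, Matrix.mul_one, mul_vecMulVec, h]
  rw [e, det_mul, det_rank_one]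
  rfl

theorem star_ineq (hK : IsCompact K) (hc : Convex ℝ K) {p : Fin n → ℝ} (hp : p ∈ K)
    (u : Fin n → ℝ) (a : ℝ) :
    0 ≤ (n + 2) * (∫ x in K, (u ⬝ᵥ (x - p)) ^ 2) - 2 * (n + 1) * a * (∫ x in K, u ⬝ᵥ (x - p))
      + n * a ^ 2 * (volume K).toReal := by
  set A := ∫ x in K, (u ⬝ᵥ (x - p)) ^ 2
  set B := ∫ x in K, u ⬝ᵥ (x - p)
  set V := (volume K).toReal
  let G : ℝ → ℝ := fun s => s ^ (n + 2) * A - 2 * a * s ^ (n + 1) * B + a ^ 2 * s ^ n * V
  have h1 : ∀ s : ℝ, 0 < s → ∫ x in aff (s • 1) ((1 - s) • p) '' K, (u ⬝ᵥ (x - p) - a) ^ 2 = G s := by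
    intro s hs
    have hd : (s • (1 : Matrix (Fin n) (Fin n) ℝ)).det = s ^ n := by simp
    rw [setIntegral_aff_image (by rw [hd]; positivity) _ hK.measurableSet, hd,
      abs_of_pos (by positivity)]
    have e : ∀ x, (u ⬝ᵥ (aff (s • 1) ((1 - s) • p) x - p) - a) ^ 2 =
        s ^ 2 * (u ⬝ᵥ (x - p)) ^ 2 - 2 * a * s * (u ⬝ᵥ (x - p)) + a ^ 2 := by
      intro x
      have : aff (s • 1) ((1 - s) • p) x - p = s • (x - p) := by
        rw [aff, smul_mulVec, one_mulVec]
        module
      rw [this, dotProduct_smul, smul_eq_mul]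
      ring
    simp only [e]
    rw [integral_add (intOn hK (by fun_prop)) (intOn hK (by fun_prop)),
      integral_sub (intOn hK (by fun_prop)) (intOn hK (by fun_prop)), integral_const_mul,
      integral_const_mul, setIntegral_const]
    simp only [Measure.real, smul_eq_mul, G]
    ring
  have h2 : ∀ s : ℝ, 0 < s → s ≤ 1 → G s ≤ G 1 := by
    intro s hs hs1
    rw [← h1 s hs, ← h1 1 one_pos]
    have e : aff ((1 : ℝ) • 1) ((1 - (1 : ℝ)) • p) '' K = K := by
      have : aff ((1 : ℝ) • 1) ((1 - (1 : ℝ)) • p) = id := by ext1 x; simp [aff]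
      rw [this, image_id]
    rw [e]
    refine setIntegral_mono_set (intOn hK (by fun_prop))
      (Eventually.of_forall fun x => sq_nonneg _) (Eventually.of_forall ?_)
    rintro _ ⟨x, hx, rfl⟩
    rw [aff, smul_mulVec, one_mulVec]
    exact hc hx hp hs.le (sub_nonneg.2 hs1) (by ring)
  have h3 : HasDerivAt G ((n + 2) * A - 2 * (n + 1) * a * B + n * a ^ 2 * V) 1 := by
    have := (((hasDerivAt_pow (n + 2) (1 : ℝ)).mul_const A).sub
      (((hasDerivAt_pow (n + 1) (1 : ℝ)).const_mul (2 * a)).mul_const B)).add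
      (((hasDerivAt_pow n (1 : ℝ)).const_mul (a ^ 2)).mul_const V)
    refine HasDerivAt.congr_deriv this ?_
    simp only [one_pow]
    push_cast
    ring
  refine ge_of_tendsto (hasDerivAt_iff_tendsto_slope_left_right.1 h3).1 ?_
  filter_upwards [Ioo_mem_nhdsLT (zero_lt_one' ℝ)] with s hs
  rw [slope_def_field]
  exact div_nonneg_of_nonpos (sub_nonpos.2 (h2 s hs.1 hs.2.le)) (sub_nonpos.2 hs.2.le)

theorem kls (hn : 1 ≤ n) (hK : IsConvexBody K) {p u : Fin n → ℝ} (hp : p ∈ K)
    (hu : covMatrix K *ᵥ u = centroid K - p) :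
    0 ≤ (centroid K - p) ⬝ᵥ u ∧ (centroid K - p) ⬝ᵥ u ≤ n * (n + 2) := by
  have hV := vol_pos hK
  have hc := hK.2.1
  set q := (centroid K - p) ⬝ᵥ u with hq
  have h1 : ∫ x in K, (∑ i, u i * (x i - centroid K i)) ^ 2 = (volume K).toReal * q := by
    rw [hq, ← hu, dotProduct_comm, quad_eq hc]
    field_simp
  have h2 : ∫ x in K, ∑ i, u i * (x i - centroid K i) = 0 := by
    rw [integral_finsetSum _ fun i _ => intOn hc (by fun_prop)]
    simp only [integral_const_mul, int_centred hc hV.ne', mul_zero, Finset.sum_const_zero]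
  have e : ∀ x : Fin n → ℝ, u ⬝ᵥ (x - p) = ∑ i, u i * (x i - centroid K i) + q := by
    intro x
    rw [hq, dotProduct, dotProduct, ← Finset.sum_add_distrib]
    exact Finset.sum_congr rfl fun i _ => by simp only [Pi.sub_apply]; ring
  have h0 : 0 ≤ q := by
    have : 0 ≤ (volume K).toReal * q := h1 ▸ integral_nonneg fun x => sq_nonneg _
    exact nonneg_of_mul_nonneg_right this hV
  refine ⟨h0, ?_⟩
  have h3 : ∫ x in K, u ⬝ᵥ (x - p) = (volume K).toReal * q := by
    simp only [e]
    rw [integral_add (intOn hc (by fun_prop)) (intOn hc (by fun_prop)), h2, setIntegral_const]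
    simp [Measure.real]
  have h4 : ∫ x in K, (u ⬝ᵥ (x - p)) ^ 2 = (volume K).toReal * (q + q ^ 2) := by
    simp only [e, add_sq]
    rw [integral_add (intOn hc (by fun_prop)) (intOn hc (by fun_prop)),
      integral_add (intOn hc (by fun_prop)) (intOn hc (by fun_prop)), h1, integral_mul_const,
      integral_const_mul, h2, setIntegral_const]
    simp only [Measure.real, smul_eq_mul]
    ring
  rcases h0.eq_or_lt with h0 | h0
  · rw [← h0]; positivity
  have hn0 : (0 : ℝ) < n := by exact_mod_cast hn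
  have h5 := star_ineq hc hK.1 hp u ((n + 1) * q / n)
  rw [h3, h4] at h5
  have h6 : (n + 2) * ((volume K).toReal * (q + q ^ 2)) -
      2 * (n + 1) * ((n + 1) * q / n) * ((volume K).toReal * q) +
      n * ((n + 1) * q / n) ^ 2 * (volume K).toReal =
      ((volume K).toReal * q / n) * (n * (n + 2) - q) := by
    field_simp
    ring
  rw [h6] at h5
  exact sub_nonneg.1 (nonneg_of_mul_nonneg_right h5 (by positivity))

theorem ratio_std : (covMatrix (stdS n)).det / (volume (stdS n)).toReal ^ 2 = rn n := by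
  have e : Bmat n = (((n : ℝ) + 1) * (n + 2)) •
      (1 + vecMulVec (fun _ : Fin n => (1 : ℝ)) (fun _ => 1)) := by
    ext i j
    rw [Matrix.smul_apply, Matrix.add_apply, Matrix.one_apply, vecMulVec_apply, smul_eq_mul, Bmat]
    split_ifs <;> ring
  have h0 : (Bmat n).det = ((n : ℝ) + 1) * (((n : ℝ) + 1) * (n + 2)) ^ n := by
    rw [e, det_smul, det_rank_one]
    simp
    ring
  have h1 := det_B_mul_det_cov (n := n)
  rw [h0] at h1
  have hp : (0 : ℝ) < ((n : ℝ) + 1) * (((n : ℝ) + 1) * (n + 2)) ^ n := by positivity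
  rw [eq_inv_of_mul_eq_one_right h1, volume_stdS, rn]
  have : (n.factorial : ℝ) ≠ 0 := by positivity
  field_simp

theorem mom_aff {A : Matrix (Fin n) (Fin n) ℝ} (hA : A.det ≠ 0) (b : Fin n → ℝ) (hK : IsCompact K)
    (hV : (volume K).toReal ≠ 0) (y : Fin n → ℝ) :
    (mom (aff A b '' K) (aff A b y)).det / (volume (aff A b '' K)).toReal ^ 2 =
      (mom K y).det / (volume K).toReal ^ 2 := by
  have hv := volume_aff_image hA b hK.measurableSet
  have e : mom (aff A b '' K) (aff A b y) = A * mom K y * Aᵀ := by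
    rw [mom_eq (isCompact_aff_image A b hK) (by rw [hv]; exact mul_ne_zero (abs_ne_zero.2 hA) hV),
      mom_eq hK hV, cov_aff_image hA b hK hV, centroid_aff_image hA b hK hV, Matrix.mul_add,
      Matrix.add_mul, mul_vecMulVec, vecMulVec_mul, vecMul_transpose, mulVec_sub, aff, aff,
      add_sub_add_right_eq_sub]
  rw [e, hv, det_mul, det_mul, det_transpose, mul_pow, sq_abs]
  field_simp

theorem mom_std (y : Fin n → ℝ) : (mom (stdS n) y).det / (volume (stdS n)).toReal ^ 2 =
    rn n * ((n + 1) * ((n + 2) * qq y - 1)) := by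
  have h1 : covMatrix (stdS n) *ᵥ (Bmat n *ᵥ (centroid (stdS n) - y)) = centroid (stdS n) - y := by
    rw [mulVec_mulVec, mul_eq_one_comm.1 Bmat_mul_cov, one_mulVec]
  rw [mom_eq isCompact_stdS volume_stdS_pos.ne', det_add_rk h1, mul_div_right_comm, ratio_std]
  congr 1
  set d := centroid (stdS n) - y with hd
  have h2 : ∀ i, (Bmat n *ᵥ d) i = ((n : ℝ) + 1) * (n + 2) * (d i + ∑ j, d j) := by
    intro i
    have : ∀ j, Bmat n i j * d j = ((n : ℝ) + 1) * (n + 2) * ((if i = j then d j else 0) + d j) := by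
      intro j
      rw [Bmat]
      split_ifs <;> ring
    simp only [mulVec, dotProduct, this, ← Finset.mul_sum, Finset.sum_add_distrib]
    simp
  have h3 : ∀ i, d i = 1 / ((n : ℝ) + 1) - y i := fun i => by rw [hd, Pi.sub_apply, centroid_stdS]
  have h4 : ∑ j, d j = n / ((n : ℝ) + 1) - ∑ j, y j := by
    simp only [h3, Finset.sum_sub_distrib]
    simp [div_eq_mul_inv]
  have h5 : ∑ j, d j ^ 2 = n / ((n : ℝ) + 1) ^ 2 - 2 / (n + 1) * ∑ j, y j + ∑ j, y j ^ 2 := by
    simp only [h3, sub_sq, Finset.sum_add_distrib, Finset.sum_sub_distrib, ← Finset.mul_sum]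
    simp [div_eq_mul_inv]
  have h6 : d ⬝ᵥ (Bmat n *ᵥ d) = ((n : ℝ) + 1) * (n + 2) * (∑ j, d j ^ 2 + (∑ j, d j) ^ 2) := by
    rw [dotProduct, sq (∑ j, d j), Finset.sum_mul, ← Finset.sum_add_distrib, Finset.mul_sum]
    exact Finset.sum_congr rfl fun i _ => by rw [h2]; ring
  rw [h6, h5, h4, qq]
  field_simp
  ring

theorem qq_eq_one {y : Fin n → ℝ} (hy : y ∈ stdS n) : qq y = 1 ↔ y ∈ range (stdV n) := by
  have e : ∀ x : Fin n → ℝ, qq x = ∑ l, lam x l ^ 2 := fun x => by
    rw [Fin.sum_univ_succ, qq, add_comm]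
    rfl
  constructor
  · intro h
    have h1 : ∑ l, lam y l * (1 - lam y l) = 0 := by
      simp only [mul_sub, mul_one, Finset.sum_sub_distrib, ← sq, ← e, h, sum_lam, sub_self]
    have h2 := (Finset.sum_eq_zero_iff_of_nonneg fun l _ =>
      mul_nonneg (mem_stdS_iff.1 hy l) (sub_nonneg.2 (lam_le_one hy l))).1 h1
    obtain ⟨k, hk⟩ : ∃ k, lam y k ≠ 0 := by
      by_contra hc
      push Not at hc
      have := sum_lam y
      simp [hc] at this
    have h3 : lam y k = 1 := by
      have := (mul_eq_zero.1 (h2 k (Finset.mem_univ k))).resolve_left hk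
      linarith
    have h4 := sum_lam y
    rw [← Finset.add_sum_erase _ _ (Finset.mem_univ k), h3, add_eq_left] at h4
    have h5 := (Finset.sum_eq_zero_iff_of_nonneg fun l _ => mem_stdS_iff.1 hy l).1 h4
    refine ⟨k, ?_⟩
    rw [eq_sum_lam y, Finset.sum_eq_single k (fun l _ hl => by
      rw [h5 l (Finset.mem_erase.2 ⟨hl, Finset.mem_univ l⟩), zero_smul]) (by simp), h3, one_smul]
  · rintro ⟨k, rfl⟩
    simp [e, lam_stdV]

theorem exists_aff_vert {v : Fin (n + 1) → Fin n → ℝ} (hv : AffineIndependent ℝ v) :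
    ∃ A : Matrix (Fin n) (Fin n) ℝ, A.det ≠ 0 ∧ (fun i => aff A (v 0) (stdV n i)) = v := by
  set A : Matrix (Fin n) (Fin n) ℝ := fun i k => v k.succ i - v 0 i with hA
  refine ⟨A, ?_, ?_⟩
  · rw [affineIndependent_iff_linearIndependent_vsub ℝ _ (0 : Fin (n + 1))] at hv
    have h2 : LinearIndependent ℝ (Aᵀ).row :=
      hv.comp (fun k : Fin n => (⟨k.succ, Fin.succ_ne_zero k⟩ : {x : Fin (n + 1) // x ≠ 0}))
        (fun a b hab => by simpa using hab)
    have h3 := Matrix.linearIndependent_rows_iff_isUnit.mp h2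
    rw [Matrix.isUnit_iff_isUnit_det, det_transpose] at h3
    exact h3.ne_zero
  · ext i j
    refine Fin.cases ?_ (fun k => ?_) i
    · simp [stdV_zero, aff]
    · rw [stdV_succ, aff_apply]
      simp [hA, Pi.single_apply]

/-- the strong slicing bound in dimension `n` -/
def Slice (n : ℕ) : Prop := ∀ K : Set (Fin n → ℝ), IsConvexBody K →
  (covMatrix K).det / (volume K).toReal ^ 2 ≤ rn n ∧
    ((covMatrix K).det / (volume K).toReal ^ 2 = rn n ↔ IsSimplex K)

theorem slice_of (hn : 1 ≤ n) (h : ∀ K S : Set (Fin n → ℝ), IsConvexBody K → IsSimplex S →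
    isoConst K ≤ isoConst S ∧ (isoConst K = isoConst S ↔ IsSimplex K)) : Slice n := by
  intro K hK
  obtain ⟨h1, h2⟩ := h K _ hK ⟨_, affineIndependent_stdV, stdS_eq_convexHull⟩
  have hn0 : (0 : ℝ) < n := by exact_mod_cast hn
  have h0 : 0 ≤ (covMatrix K).det / (volume K).toReal ^ 2 :=
    div_nonneg (cov_posDef hK).det_pos.le (sq_nonneg _)
  rw [isoConst, isoConst, ratio_std] at h1 h2
  refine ⟨(Real.rpow_le_rpow_iff h0 (rn_pos n).le (by positivity)).1 h1, ?_⟩
  rw [← h2, Real.rpow_left_inj h0 (rn_pos n).le (by positivity)]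

/-- the reverse centroid inequality for second moments -/
theorem rbp (hn : 1 ≤ n) (hs : Slice n) (hK : IsConvexBody K) {p : Fin n → ℝ} (hp : p ∈ K) :
    (mom K p).det / (volume K).toReal ^ 2 ≤ rn n * (n + 1) ^ 2 ∧
      ((mom K p).det / (volume K).toReal ^ 2 = rn n * (n + 1) ^ 2 ↔
        ∃ v : Fin (n + 1) → Fin n → ℝ, AffineIndependent ℝ v ∧ K = convexHull ℝ (range v) ∧
          p ∈ range v) := by
  have hV := vol_pos hK
  have hd := (cov_posDef hK).det_pos
  have hu : covMatrix K *ᵥ ((covMatrix K)⁻¹ *ᵥ (centroid K - p)) = centroid K - p := by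
    rw [mulVec_mulVec, mul_nonsing_inv _ hd.ne'.isUnit, one_mulVec]
  obtain ⟨h0, h1⟩ := kls hn hK hp hu
  obtain ⟨h2, h3⟩ := hs K hK
  have e := det_add_rk hu
  rw [← mom_eq hK.2.1 hV.ne'] at e
  have hr : 0 < (covMatrix K).det / (volume K).toReal ^ 2 := by positivity
  have hn1 : (0 : ℝ) < (n + 1) * (n + 2) := by positivity
  refine ⟨?_, fun he => ?_, ?_⟩
  · rw [e, mul_div_right_comm]
    exact mul_le_mul h2 (by linarith) (by linarith) (rn_pos n).le
  · have h4 : IsSimplex K := by
      refine h3.1 (le_antisymm h2 (not_lt.1 fun hlt => ?_))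
      rw [e, mul_div_right_comm] at he
      exact absurd he (mul_lt_mul hlt (by linarith) (by linarith) (rn_pos n).le).ne
    obtain ⟨v, hv, rfl⟩ := h4
    obtain ⟨A, hA, ev⟩ := exists_aff_vert hv
    refine ⟨v, hv, rfl, ?_⟩
    have e1 := image_stdS A (v 0)
    rw [ev] at e1
    rw [← e1] at hp he
    obtain ⟨y, hy, rfl⟩ := hp
    rw [mom_aff hA _ isCompact_stdS volume_stdS_pos.ne', mom_std] at he
    have h5 := mul_left_cancel₀ (rn_pos n).ne' he
    obtain ⟨k, rfl⟩ := (qq_eq_one hy).1 (mul_left_cancel₀ hn1.ne' (by linarith))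
    exact ⟨k, (congrFun ev k).symm⟩
  · rintro ⟨v, hv, rfl, k, rfl⟩
    obtain ⟨A, hA, ev⟩ := exists_aff_vert hv
    have e1 := image_stdS A (v 0)
    rw [ev] at e1
    have h5 : stdV n k ∈ stdS n := by
      rw [stdS_eq_convexHull]
      exact subset_convexHull ℝ _ (mem_range_self k)
    rw [← e1, ← congrFun ev k, mom_aff hA _ isCompact_stdS volume_stdS_pos.ne', mom_std,
      (qq_eq_one h5).2 (mem_range_self k)]
    ring

end Vale.Agent.N254B
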