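import Mathlib.Analysis.Convex.Body
import Mathlib.Geometry.Euclidean.Volume.Measure
import Mathlib.LinearAlgebra.AffineSpace.Simplex.Basic
import Mathlib.Probability.ConditionalProbability
import Mathlib.Probability.Moments.Covariance

/-! The isotropic constant and three statements about convex bodies. -/

open MeasureTheory Set

namespace Vale.Agent.N254B

/-- The isotropic constant `(det Σ / vol²)^(1/(2n))`, `Σ` the covariance matrix of the coordinates
under the uniform distribution on `K`. -/
noncomputable def L {n : ℕ} (K : Set (EuclideanSpace ℝ (Fin n))) : ℝ :=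
  ((Matrix.of fun i j => ProbabilityTheory.covariance (fun x => x i) (fun x => x j)
    (ProbabilityTheory.cond volume K)).det / volume.real K ^ 2) ^ (1 / (2 * (n : ℝ)))

/-- Stability: a convex body whose isotropic constant is close to that of a simplex lies between a
simplex and a slightly dilated copy of it. -/
def Stable : Prop :=
  ∀ (n : ℕ) (S : Affine.Simplex ℝ (EuclideanSpace ℝ (Fin n)) n) (ε : ℝ), 1 ≤ n → 0 < ε →
    ∃ δ : ℝ, 0 < δ ∧ ∀ K : ConvexBody (EuclideanSpace ℝ (Fin n)), (interior K.carrier).Nonempty →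
      L (convexHull ℝ (range S.points)) - δ ≤ L K.carrier →
      ∃ (T : Affine.Simplex ℝ (EuclideanSpace ℝ (Fin n)) n) (z : EuclideanSpace ℝ (Fin n)),
        convexHull ℝ (range T.points) ⊆ K.carrier ∧
        K.carrier ⊆ AffineMap.homothety z (1 + ε) '' convexHull ℝ (range T.points)

/-- The sharp bound for the second moments about a point of the body, with its equality case. -/
def Inertia : Prop :=
  ∀ (n : ℕ) (K : ConvexBody (EuclideanSpace ℝ (Fin n))) (p : EuclideanSpace ℝ (Fin n)) (D C : ℝ),
    1 ≤ n → (interior K.carrier).Nonempty → p ∈ K.carrier →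
    D = (Matrix.of fun i j =>
      ∫ x, (x i - p i) * (x j - p j) ∂ProbabilityTheory.cond volume K.carrier).det →
    C = ((n : ℝ) + 1) * (n.factorial : ℝ) ^ 2 / (((n : ℝ) + 1) * (n + 2)) ^ n *
      volume.real K.carrier ^ 2 →
    D ≤ C ∧ (D = C ↔ ∃ T : Affine.Simplex ℝ (EuclideanSpace ℝ (Fin n)) n,
      K.carrier = convexHull ℝ (range T.points) ∧ p ∈ range T.points)

/-- Every convex body has a large hyperplane section. -/
def BigSection : Prop :=
  ∀ (m : ℕ) (K : ConvexBody (EuclideanSpace ℝ (Fin (m + 1)))), (interior K.carrier).Nonempty →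
    ∃ (u : EuclideanSpace ℝ (Fin (m + 1))) (t : ℝ), ‖u‖ = 1 ∧
      Real.exp 1 / √12 * volume.real K.carrier ^ ((m : ℝ) / (m + 1)) <
        (Measure.euclideanHausdorffMeasure m).real (K.carrier ∩ {x | inner ℝ u x = t})

end Vale.Agent.N254B
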