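import Vale.Agent.N254B.Core

/-! P254: bodies with almost maximal isotropic constant are close to a simplex. -/

set_option linter.all false

open MeasureTheory Set Matrix Filter Topology Metric TopologicalSpace

namespace Vale.Agent.N254B

open Vale.Agent.P254

variable {n : ℕ} {K : Set (Fin n → ℝ)}

/-- centre of a ball in the standard simplex -/
noncomputable def ctr (n : ℕ) : Fin n → ℝ := fun _ => 1 / (2 * ((n : ℝ) + 1))

theorem ball_sub : closedBall (ctr n) (1 / (2 * ((n : ℝ) + 1))) ⊆ stdS n := by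
  intro y hy
  have h : ∀ i, |y i - 1 / (2 * ((n : ℝ) + 1))| ≤ 1 / (2 * ((n : ℝ) + 1)) := fun i =>
    (dist_le_pi_dist y (ctr n) i).trans hy
  refine ⟨fun i => by linarith [(abs_le.1 (h i)).1], ?_⟩
  have h1 : ∑ i, y i ≤ ∑ _i : Fin n, 1 / ((n : ℝ) + 1) := Finset.sum_le_sum fun i _ => by
    have : 1 / ((n : ℝ) + 1) = 1 / (2 * ((n : ℝ) + 1)) + 1 / (2 * ((n : ℝ) + 1)) := by
      field_simp
      norm_num
    linarith [(abs_le.1 (h i)).2]
  refine h1.trans ?_
  simp only [Finset.sum_const, Finset.card_univ, Fintype.card_fin, nsmul_eq_mul, mul_one_div]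
  rw [div_le_one (by positivity)]
  linarith

theorem normal (hK : IsConvexBody K) : ∃ (A : Matrix (Fin n) (Fin n) ℝ) (b : Fin n → ℝ)
    (L : Set (Fin n → ℝ)), A.det ≠ 0 ∧ K = aff A b '' L ∧ Convex ℝ L ∧ IsCompact L ∧
      closedBall (ctr n) (1 / (2 * ((n : ℝ) + 1))) ⊆ L ∧ L ⊆ closedBall 0 1 := by
  obtain ⟨hc, hk, x0, hx0⟩ := hK
  obtain ⟨r, hr, hball⟩ := Metric.isOpen_iff.mp isOpen_interior x0 hx0
  let M : (Fin (n + 1) → Fin n → ℝ) → Matrix (Fin n) (Fin n) ℝ := fun v i k => v k.succ i - v 0 i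
  have hM : Continuous fun v => |(M v).det| :=
    (Continuous.matrix_det (by unfold M; fun_prop)).abs
  have hw : (Fin.cons x0 fun k => x0 + Pi.single k (r / 2) : Fin (n + 1) → Fin n → ℝ) ∈
      univ.pi fun _ => K := by
    intro i _
    refine Fin.cases (interior_subset hx0) (fun k => interior_subset (hball ?_)) i
    rw [Fin.cons_succ, mem_ball, dist_eq_norm, add_sub_cancel_left, Pi.norm_single,
      Real.norm_of_nonneg (by positivity)]
    linarith
  obtain ⟨v, hv, hmax⟩ := (isCompact_univ_pi fun _ : Fin (n + 1) => hk).exists_isMaxOn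
    ⟨_, hw⟩ hM.continuousOn
  have hd : 0 < |(M v).det| := by
    refine lt_of_lt_of_le ?_ (hmax hw)
    have e : M (Fin.cons x0 fun k => x0 + Pi.single k (r / 2)) = (r / 2) • 1 := by
      ext i k
      simp [M, Pi.single_apply, Matrix.one_apply]
    change 0 < |(M _).det|
    rw [e, det_smul, det_one]
    positivity
  have hA : (M v).det ≠ 0 := abs_pos.1 hd
  have hsub : aff (M v) (v 0) ⁻¹' K ⊆ closedBall 0 1 := by
    intro y hy
    rw [mem_closedBall_zero_iff, pi_norm_le_iff_of_nonneg zero_le_one]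
    intro k
    have h1 : Function.update v k.succ (aff (M v) (v 0) y) ∈ univ.pi fun _ => K := by
      intro i _
      by_cases h : i = k.succ
      · rw [h, Function.update_self]; exact hy
      · rw [Function.update_of_ne h]; exact hv i trivial
    have h2 : M (Function.update v k.succ (aff (M v) (v 0) y)) =
        (M v).updateCol k fun i => ∑ j, y j • M v i j := by
      ext i j
      rw [updateCol_apply]
      split_ifs with h
      · subst h
        change Function.update v j.succ _ j.succ i - Function.update v j.succ _ 0 i = _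
        rw [Function.update_self, Function.update_of_ne (Fin.succ_ne_zero j).symm, aff_apply,
          add_sub_cancel_right]
        exact Finset.sum_congr rfl fun _ _ => mul_comm _ _
      · simp only [M, Function.update_of_ne (Fin.succ_ne_zero k).symm,
          Function.update_of_ne ((Fin.succ_injective _).ne h)]
    have h3 : |(M (Function.update v k.succ (aff (M v) (v 0) y))).det| ≤ |(M v).det| := hmax h1
    rw [h2, det_updateCol_sum, smul_eq_mul, abs_mul] at h3
    exact (mul_le_iff_le_one_left hd).1 h3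
  have hcv : Convex ℝ (aff (M v) (v 0) ⁻¹' K) := by
    rw [← coe_affMap]
    exact hc.affine_preimage _
  refine ⟨M v, v 0, aff (M v) (v 0) ⁻¹' K, hA, (image_preimage_eq _ fun x => ?_).symm, hcv,
    (isCompact_closedBall 0 1).of_isClosed_subset
      (hk.isClosed.preimage (continuous_aff _ _)) hsub, ball_sub.trans ?_, hsub⟩
  · exact ⟨(M v)⁻¹ *ᵥ (x - v 0), by
      rw [aff, mulVec_mulVec, mul_nonsing_inv _ hA.isUnit, one_mulVec, sub_add_cancel]⟩
  · rw [stdS_eq_convexHull]
    refine convexHull_min ?_ hcv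
    rintro _ ⟨i, rfl⟩
    have e : aff (M v) (v 0) (stdV n i) = v i := by
      ext j
      refine Fin.cases ?_ (fun k => ?_) i
      · simp [stdV_zero, aff]
      · rw [stdV_succ, aff_apply]
        simp [M, Pi.single_apply]
    rw [mem_preimage, e]
    exact hv i trivial

theorem shrink (hc : Convex ℝ K) {z x y : Fin n → ℝ} {r t : ℝ} (hr : 0 < r) (ht : 0 < t)
    (hb : closedBall z r ⊆ K) (hy : y ∈ K) (hd : dist x y < t * r) :
    z + (1 + t)⁻¹ • (x - z) ∈ K := by
  have h1 : z + t⁻¹ • (x - y) ∈ K := hb (by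
    rw [mem_closedBall, dist_eq_norm, add_sub_cancel_left, norm_smul, ← dist_eq_norm,
      Real.norm_of_nonneg (by positivity), inv_mul_le_iff₀ ht]
    exact hd.le)
  have h2 := hc hy h1 (a := (1 + t)⁻¹) (b := (1 + t)⁻¹ * t) (by positivity) (by positivity)
    (by field_simp)
  convert h2 using 1
  ext i
  simp only [Pi.add_apply, Pi.smul_apply, Pi.sub_apply, smul_eq_mul]
  field_simp
  ring

theorem lim_int {L : ℕ → Set (Fin n → ℝ)} (hL : ∀ k, IsCompact (L k))
    (hb : ∀ k, L k ⊆ closedBall 0 1) (hK : IsCompact K) (hc : Convex ℝ K) {z : Fin n → ℝ}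
    (h1 : ∀ t : ℝ, 0 < t → ∀ᶠ k in atTop, (∀ x ∈ K, z + (1 + t)⁻¹ • (x - z) ∈ L k) ∧
      ∀ x ∈ L k, z + (1 + t)⁻¹ • (x - z) ∈ K) {f : (Fin n → ℝ) → ℝ} (hf : Continuous f) :
    Tendsto (fun k => ∫ x in L k, f x) atTop (𝓝 (∫ x in K, f x)) := by
  simp only [← integral_indicator (hL _).measurableSet, ← integral_indicator hK.measurableSet]
  refine tendsto_integral_of_dominated_convergence ((closedBall 0 1).indicator fun x => ‖f x‖)
    (fun k => (hf.aestronglyMeasurable.indicator (hL k).measurableSet))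
    ((integrable_indicator_iff measurableSet_closedBall).2
      (intOn (isCompact_closedBall 0 1) hf.norm)) (fun k => Eventually.of_forall fun x => ?_) ?_
  · by_cases hx : x ∈ L k
    · rw [indicator_of_mem hx, indicator_of_mem (hb k hx)]
    · rw [indicator_of_notMem hx, norm_zero]
      exact indicator_nonneg (fun _ _ => norm_nonneg _) _
  · have h0 : ∀ᵐ x, x ∉ frontier K := measure_eq_zero_iff_ae_notMem.1 (hc.addHaar_frontier volume)
    filter_upwards [h0] with x hx
    refine tendsto_const_nhds.congr' ?_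
    by_cases hxK : x ∈ K
    · have h2 : x ∈ interior K := by
        by_contra h
        exact hx ⟨subset_closure hxK, h⟩
      have h3 : Tendsto (fun t : ℝ => z + (1 + t) • (x - z)) (𝓝[>] 0) (𝓝 x) := by
        have := (by fun_prop : Continuous fun t : ℝ => z + (1 + t) • (x - z)).tendsto 0
        rw [add_zero, one_smul, add_sub_cancel] at this
        exact this.mono_left nhdsWithin_le_nhds
      obtain ⟨t, ht, ht0⟩ :=
        ((h3.eventually (isOpen_interior.mem_nhds h2)).and self_mem_nhdsWithin).exists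
      have ht1 : (0 : ℝ) < t := ht0
      filter_upwards [h1 t ht1] with k hk
      have h4 := hk.1 _ (interior_subset ht)
      rw [add_sub_cancel_left, smul_smul, inv_mul_cancel₀ (by positivity), one_smul,
        add_sub_cancel] at h4
      rw [indicator_of_mem hxK, indicator_of_mem h4]
    · have h3 : Tendsto (fun t : ℝ => z + (1 + t)⁻¹ • (x - z)) (𝓝[>] 0) (𝓝 x) := by
        have : ContinuousAt (fun t : ℝ => z + (1 + t)⁻¹ • (x - z)) 0 := by
          fun_prop (disch := norm_num)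
        have h := this.tendsto
        rw [add_zero, inv_one, one_smul, add_sub_cancel] at h
        exact h.mono_left nhdsWithin_le_nhds
      obtain ⟨t, ht, ht0⟩ :=
        ((h3.eventually (hK.isClosed.isOpen_compl.mem_nhds hxK)).and self_mem_nhdsWithin).exists
      filter_upwards [h1 t ht0] with k hk
      rw [indicator_of_notMem hxK, indicator_of_notMem fun h => ht (hk.2 x h)]

theorem lim_iso {L : ℕ → Set (Fin n → ℝ)} (hL : ∀ k, IsConvexBody (L k)) (hK : IsConvexBody K)
    (h : ∀ f : (Fin n → ℝ) → ℝ, Continuous f →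
      Tendsto (fun k => ∫ x in L k, f x) atTop (𝓝 (∫ x in K, f x))) :
    Tendsto (fun k => isoConst (L k)) atTop (𝓝 (isoConst K)) := by
  have hV : Tendsto (fun k => (volume (L k)).toReal) atTop (𝓝 (volume K).toReal) := by
    simpa [Measure.real] using h (fun _ => 1) continuous_const
  have hV' := hV.inv₀ (vol_pos hK).ne'
  have hc : ∀ i, Tendsto (fun k => centroid (L k) i) atTop (𝓝 (centroid K i)) := fun i =>
    hV'.mul (h _ (continuous_apply i))
  have hS : Tendsto (fun k => covMatrix (L k)) atTop (𝓝 (covMatrix K)) := by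
    refine tendsto_pi_nhds.2 fun i => tendsto_pi_nhds.2 fun j => ?_
    simp only [cov_eq (hL _).2.1 (vol_pos (hL _)).ne', cov_eq hK.2.1 (vol_pos hK).ne']
    exact (hV'.mul (h _ (by fun_prop))).sub ((hc i).mul (hc j))
  exact (((continuous_id.matrix_det.tendsto _).comp hS).div (hV.pow 2)
    (pow_pos (vol_pos hK) 2).ne').rpow_const (Or.inr (by positivity))

/-- `K` lies between a simplex and its dilate -/
def Near (ε : ℝ) (K : Set (Fin n → ℝ)) : Prop :=
  ∃ T z, IsSimplex T ∧ T ⊆ K ∧ ∀ x ∈ K, ∃ w ∈ T, x = z + (1 + ε) • (w - z)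

theorem simplex_aff {A : Matrix (Fin n) (Fin n) ℝ} (hA : A.det ≠ 0) (b : Fin n → ℝ)
    (h : IsSimplex K) : IsSimplex (aff A b '' K) := by
  obtain ⟨A', b', hA', rfl⟩ := h.exists_aff
  rw [image_image]
  simp only [aff_aff]
  exact isSimplex_image (by rw [det_mul]; exact mul_ne_zero hA hA') _

theorem Near.aff {ε : ℝ} {A : Matrix (Fin n) (Fin n) ℝ} (hA : A.det ≠ 0) (b : Fin n → ℝ)
    (h : Near ε K) : Near ε (aff A b '' K) := by
  obtain ⟨T, z, h1, h2, h3⟩ := h
  refine ⟨_, P254.aff A b z, simplex_aff hA b h1, image_mono h2, ?_⟩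
  rintro _ ⟨x, hx, rfl⟩
  obtain ⟨w, hw, rfl⟩ := h3 x hx
  refine ⟨_, ⟨w, hw, rfl⟩, ?_⟩
  simp only [P254.aff, mulVec_add, mulVec_smul, mulVec_sub]
  module

theorem stab (h : ∀ K S : Set (Fin n → ℝ), IsConvexBody K → IsSimplex S →
    isoConst K ≤ isoConst S ∧ (isoConst K = isoConst S ↔ IsSimplex K)) {ε : ℝ} (hε : 0 < ε) :
    ∃ δ : ℝ, 0 < δ ∧ ∀ K : Set (Fin n → ℝ), IsConvexBody K →
      isoConst (stdS n) - δ ≤ isoConst K → Near ε K := by
  by_contra hcon
  push Not at hcon
  choose K hK h1 h2 using fun k : ℕ => hcon (1 / ((k : ℝ) + 1)) (by positivity)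
  choose A b L hA e hc hk hb hB using fun k => normal (hK k)
  set r : ℝ := 1 / (2 * ((n : ℝ) + 1)) with hr
  have hr0 : 0 < r := by positivity
  have body : ∀ M : Set (Fin n → ℝ), Convex ℝ M → IsCompact M → closedBall (ctr n) r ⊆ M →
      IsConvexBody M := fun M a b c =>
    ⟨a, b, ctr n, mem_interior_iff_mem_nhds.2 (mem_of_superset (closedBall_mem_nhds _ hr0) c)⟩
  have hL : ∀ k, IsConvexBody (L k) := fun k => body _ (hc k) (hk k) (hb k)
  let P : ℕ → NonemptyCompacts (Fin n → ℝ) := fun k =>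
    ⟨⟨L k, hk k⟩, _, hb k (mem_closedBall_self hr0.le)⟩
  obtain ⟨Q, -, φ, hφ, hQ⟩ := (NonemptyCompacts.isCompact_subsets_of_isCompact
    (isCompact_closedBall (0 : Fin n → ℝ) 1)).tendsto_subseq (x := P) hB
  have hH : ∀ ρ : ℝ, 0 < ρ → ∀ᶠ k in atTop, (∀ x ∈ L (φ k), ∃ y ∈ (Q : Set (Fin n → ℝ)),
      dist x y < ρ) ∧ ∀ y ∈ (Q : Set (Fin n → ℝ)), ∃ x ∈ L (φ k), dist x y < ρ := by
    intro ρ hρ
    filter_upwards [Metric.tendsto_nhds.1 hQ ρ hρ] with k hk'
    have fin := hausdorffEDist_ne_top_of_nonempty_of_bounded (P (φ k)).nonempty Q.nonempty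
      (P (φ k)).isCompact.isBounded Q.isCompact.isBounded
    exact ⟨fun x hx => exists_dist_lt_of_hausdorffDist_lt hx hk' fin,
      fun y hy => exists_dist_lt_of_hausdorffDist_lt' hy hk' fin⟩
  have hcl := Q.isCompact.isClosed
  have hQb : closedBall (ctr n) r ⊆ Q := fun x hx => by
    rw [← hcl.closure_eq, Metric.mem_closure_iff]
    intro ρ hρ
    obtain ⟨k, hk'⟩ := (hH ρ hρ).exists
    exact hk'.1 x (hb _ hx)
  have hQc : Convex ℝ (Q : Set (Fin n → ℝ)) := fun x hx y hy s t hs ht hst => by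
    rw [← hcl.closure_eq, Metric.mem_closure_iff]
    intro ρ hρ
    obtain ⟨k, hk'⟩ := (hH (ρ / 2) (by positivity)).exists
    obtain ⟨x', hx', dx⟩ := hk'.2 x hx
    obtain ⟨y', hy', dy⟩ := hk'.2 y hy
    obtain ⟨w, hw, dw⟩ := hk'.1 _ (hc _ hx' hy' hs ht hst)
    refine ⟨w, hw, (dist_triangle _ (s • x' + t • y') _).trans_lt ?_⟩
    have := dist_add_add_le (s • x) (t • y) (s • x') (t • y')
    rw [dist_smul₀, dist_smul₀, Real.norm_of_nonneg hs, Real.norm_of_nonneg ht, dist_comm x,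
      dist_comm y] at this
    nlinarith [mul_le_mul_of_nonneg_left dx.le hs, mul_le_mul_of_nonneg_left dy.le ht]
  have hQB := body _ hQc Q.isCompact hQb
  have hS : ∀ t : ℝ, 0 < t → ∀ᶠ k in atTop,
      (∀ x ∈ (Q : Set (Fin n → ℝ)), ctr n + (1 + t)⁻¹ • (x - ctr n) ∈ L (φ k)) ∧
      ∀ x ∈ L (φ k), ctr n + (1 + t)⁻¹ • (x - ctr n) ∈ (Q : Set (Fin n → ℝ)) := by
    intro t ht
    filter_upwards [hH (t * r) (by positivity)] with k hk'
    refine ⟨fun x hx => ?_, fun x hx => ?_⟩
    · obtain ⟨y, hy, d⟩ := hk'.2 x hx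
      exact shrink (hc _) hr0 ht (hb _) hy (dist_comm x y ▸ d)
    · obtain ⟨y, hy, d⟩ := hk'.1 x hx
      exact shrink hQc hr0 ht hQb hy d
  have hlim := lim_iso (fun k => hL (φ k)) hQB fun f hf =>
    lim_int (fun k => hk (φ k)) (fun k => hB (φ k)) Q.isCompact hQc hS hf
  have hge : isoConst (stdS n) ≤ isoConst (Q : Set (Fin n → ℝ)) := by
    have h3 := ((tendsto_one_div_add_atTop_nhds_zero_nat (𝕜 := ℝ)).comp
      hφ.tendsto_atTop).const_sub (isoConst (stdS n))
    rw [sub_zero] at h3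
    refine le_of_tendsto_of_tendsto' h3 hlim fun k => ?_
    have h4 := h1 (φ k)
    rw [e, isoConst_aff_image (hA _) _ (hk _) (vol_pos (hL _)).ne'] at h4
    exact h4
  obtain ⟨h5, h6⟩ := h _ _ hQB ⟨_, affineIndependent_stdV, stdS_eq_convexHull⟩
  have hsim := h6.1 (le_antisymm h5 hge)
  obtain ⟨t, ht, htt⟩ : ∃ t : ℝ, 0 < t ∧ (1 + t) * (1 + t) = 1 + ε := by
    refine ⟨√(1 + ε) - 1, sub_pos.2 (Real.lt_sqrt_of_sq_lt (by linarith)), ?_⟩
    rw [add_sub_cancel, Real.mul_self_sqrt (by positivity)]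
  obtain ⟨k, hk1, hk2⟩ := (hS t ht).exists
  refine h2 (φ k) ?_
  rw [e]
  have ea : ∀ x, aff ((1 + t)⁻¹ • 1) ((1 - (1 + t)⁻¹) • ctr n) x =
      ctr n + (1 + t)⁻¹ • (x - ctr n) := fun x => by
    rw [aff, smul_mulVec, one_mulVec]
    module
  refine Near.aff (hA _) _ ⟨_, ctr n, simplex_aff (A := (1 + t)⁻¹ • 1) (by
    rw [det_smul, det_one]; positivity) ((1 - (1 + t)⁻¹) • ctr n) hsim, ?_, fun x hx => ?_⟩
  · rintro _ ⟨x, hx, rfl⟩
    rw [ea]
    exact hk1 x hx
  · refine ⟨_, ⟨_, hk2 x hx, rfl⟩, ?_⟩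
    rw [ea, add_sub_cancel_left, add_sub_cancel_left, smul_smul, smul_smul, ← htt]
    have : (1 + t) * (1 + t) * (1 + t)⁻¹ * (1 + t)⁻¹ = 1 := by field_simp
    rw [this, one_smul, add_sub_cancel]

end Vale.Agent.N254B
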