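import Vale.Agent.N254B.Defs
import Vale.Agent.N254B.Stab
import Vale.Agent.P254.H4.OneD
import Vale.Agent.P254.H4.Eig

/-! P254: hyperplane sections, and the transfer to Euclidean space. -/

set_option linter.all false

open MeasureTheory ProbabilityTheory Set Matrix Filter Topology WithLp

namespace Vale.Agent.N254B

open Vale.Agent.P254 Vale.Agent.P254.H4

theorem sect {m : ℕ} {K : Set (Fin (m + 1) → ℝ)} (hK : IsConvexBody K) {c : ℝ} (hc0 : 0 < c)
    (hc1 : 12 * c ^ 2 * isoConst K ^ 2 < 1) :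
    ∃ O : Matrix (Fin (m + 1)) (Fin (m + 1)) ℝ, Oᵀ * O = 1 ∧ ∃ t : ℝ,
      c * (volume K).toReal ^ ((m : ℝ) / (m + 1)) <
        (volume {y : Fin m → ℝ | O *ᵥ (Fin.cons t y : Fin (m + 1) → ℝ) ∈ K}).toReal := by
  obtain ⟨O, hO, -, hl⟩ := exists_orth (cov_posDef hK)
  have hO' : O * Oᵀ = 1 := mul_eq_one_comm.mp hO
  have hdet : |(Oᵀ).det| = 1 := by
    have h1 := congrArg Matrix.det hO
    rw [det_mul, det_transpose, det_one] at h1
    rw [det_transpose]
    exact abs_eq_abs.2 (mul_self_eq_one_iff.1 h1) |>.trans abs_one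
  refine ⟨O, hO, ?_⟩
  by_contra hc
  push Not at hc
  have hdet0 : (Oᵀ).det ≠ 0 := abs_pos.1 (by rw [hdet]; exact one_pos)
  have hKc := hK.2.1
  have hV := vol_pos hK
  set V := (volume K).toReal with hVdef
  set M := aff Oᵀ 0 '' K with hM
  have hsl : ∀ t, sl M t = {y : Fin m → ℝ | O *ᵥ (Fin.cons t y : Fin (m + 1) → ℝ) ∈ K} := by
    intro t
    ext y
    simp only [sl, hM, mem_ofPred_eq, mem_image, aff, add_zero]
    constructor
    · rintro ⟨x, hx, hxy⟩
      rwa [← hxy, mulVec_mulVec, hO', one_mulVec]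
    · exact fun h => ⟨_, h, by rw [mulVec_mulVec, hO, one_mulVec]⟩
  have hLV : (volume M).toReal = V := by
    rw [hM, volume_aff_image hdet0 _ hKc.measurableSet, hdet, one_mul]
  have hcov : covMatrix M = Oᵀ * covMatrix K * O := by
    rw [hM, cov_aff_image hdet0 _ hKc hV.ne', transpose_transpose]
  set lam := (Oᵀ * covMatrix K * O) 0 0 with hlam
  have h1 := mom_lower (isCompact_aff_image Oᵀ 0 hKc) (μ := centroid M 0)
    (B := c * V ^ ((m : ℝ) / (m + 1))) (by positivity) (fun t => by rw [hsl]; exact hc t)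
  have h2 : ∫ z in M, (z 0 - centroid M 0) ^ 2 = V * lam := by
    rw [hlam, ← hcov, covMatrix, hLV]
    field_simp
  rw [h2, hLV] at h1
  set x := V ^ (1 / ((m : ℝ) + 1)) with hx
  have hx0 : 0 < x := by positivity
  have hxV : x ^ (m + 1) = V := by
    rw [hx, ← Real.rpow_natCast, ← Real.rpow_mul hV.le]
    push_cast
    rw [one_div_mul_cancel (by positivity), Real.rpow_one]
  have hxm : x ^ m = V ^ ((m : ℝ) / (m + 1)) := by
    rw [hx, ← Real.rpow_natCast, ← Real.rpow_mul hV.le]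
    congr 1
    ring
  have h4 : x ^ 2 ≤ 12 * c ^ 2 * lam := by
    rw [← hxm, ← hxV] at h1
    refine le_of_mul_le_mul_left (a := x ^ (m + 1) * (x ^ m) ^ 2) ?_ (by positivity)
    calc _ = (x ^ (m + 1)) ^ 3 := by ring
      _ ≤ _ := h1
      _ = _ := by ring
  have h5 : (x ^ 2) ^ (m + 1) ≤ (12 * c ^ 2) ^ (m + 1) * (covMatrix K).det := by
    refine (pow_le_pow_left₀ (by positivity) h4 (m + 1)).trans ?_
    rw [mul_pow]
    exact mul_le_mul_of_nonneg_left hl (by positivity)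
  have hd := (cov_posDef hK).det_pos
  have h6 : (covMatrix K).det = isoConst K ^ (2 * (m + 1)) * V ^ 2 := by
    rw [isoConst, pow_root (by omega) (by positivity), ← hVdef]
    field_simp
  rw [show (x ^ 2) ^ (m + 1) = V ^ 2 by rw [← hxV]; ring, h6] at h5
  have h10 : 1 ≤ (12 * c ^ 2 * isoConst K ^ 2) ^ (m + 1) := by
    refine le_of_mul_le_mul_left (a := V ^ 2) ?_ (by positivity)
    rw [mul_one]
    refine h5.trans (le_of_eq ?_)
    ring
  exact absurd h10 (not_le.mpr (pow_lt_one₀ (by positivity) hc1 (by omega)))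

variable {n : ℕ} {K : Set (EuclideanSpace ℝ (Fin n))}

/-- The coordinates of a set. -/
def co (K : Set (EuclideanSpace ℝ (Fin n))) : Set (Fin n → ℝ) := toLp 2 ⁻¹' K

/-- The coordinate map. -/
noncomputable def eqv (n : ℕ) : (Fin n → ℝ) ≃L[ℝ] EuclideanSpace ℝ (Fin n) :=
  (EuclideanSpace.equiv (Fin n) ℝ).symm

theorem vol_co (K : Set (EuclideanSpace ℝ (Fin n))) : volume (co K) = volume K :=
  (PiLp.volume_preserving_toLp (Fin n)).measure_preimage_emb
    (eqv n).toHomeomorph.measurableEmbedding K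

theorem int_co (K : Set (EuclideanSpace ℝ (Fin n))) (f : EuclideanSpace ℝ (Fin n) → ℝ) :
    ∫ x, f x ∂cond volume K = (volume (co K)).toReal⁻¹ * ∫ x in co K, f (toLp 2 x) := by
  rw [ProbabilityTheory.cond, integral_smul_measure, vol_co, ENNReal.toReal_inv, smul_eq_mul, co,
    (PiLp.volume_preserving_toLp (Fin n)).setIntegral_preimage_emb
      (eqv n).toHomeomorph.measurableEmbedding]

theorem L_co (K : Set (EuclideanSpace ℝ (Fin n))) : L K = isoConst (co K) := by
  rw [L, isoConst, Measure.real, ← vol_co]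
  congr 3
  ext i j
  simp only [of_apply, covariance, int_co]
  rfl

theorem body_co (K : ConvexBody (EuclideanSpace ℝ (Fin n)))
    (h3 : (interior (K : Set (EuclideanSpace ℝ (Fin n)))).Nonempty) :
    IsConvexBody (co (K : Set (EuclideanSpace ℝ (Fin n)))) := by
  refine ⟨K.convex.linear_preimage (eqv n).toLinearEquiv.toLinearMap,
    ((eqv n).toHomeomorph.isCompact_preimage).2 K.isCompact, ?_⟩
  obtain ⟨z, hz⟩ := h3
  exact ⟨ofLp z, ((eqv n).toHomeomorph.preimage_interior _).subset hz⟩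

theorem co_hull (v : Fin (n + 1) → EuclideanSpace ℝ (Fin n)) :
    co (convexHull ℝ (range v)) = convexHull ℝ (range fun i => ofLp (v i)) := by
  have h1 : ∀ K, co K = (eqv n).symm.toLinearEquiv.toLinearMap '' K := fun K => by
    ext x
    exact ⟨fun hx => ⟨toLp 2 x, hx, rfl⟩, by rintro ⟨y, hy, rfl⟩; exact hy⟩
  rw [h1, LinearMap.image_convexHull, ← range_comp]
  rfl

theorem co_inj {K M : Set (EuclideanSpace ℝ (Fin n))} (h : co K = co M) : K = M :=
  (eqv n).surjective.preimage_injective h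

theorem ai_co (S : Affine.Simplex ℝ (EuclideanSpace ℝ (Fin n)) n) :
    AffineIndependent ℝ fun i => ofLp (S.points i) :=
  S.independent.map' (eqv n).symm.toLinearEquiv.toAffineEquiv.toAffineMap (eqv n).symm.injective

/-- the simplex with given coordinates -/
noncomputable def smp {v : Fin (n + 1) → Fin n → ℝ} (hv : AffineIndependent ℝ v) :
    Affine.Simplex ℝ (EuclideanSpace ℝ (Fin n)) n :=
  ⟨fun i => toLp 2 (v i), hv.map' (eqv n).toLinearEquiv.toAffineEquiv.toAffineMap (eqv n).injective⟩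

theorem simplex_co : IsSimplex (co K) ↔
    ∃ S : Affine.Simplex ℝ (EuclideanSpace ℝ (Fin n)) n, K = convexHull ℝ (range S.points) :=
  ⟨fun ⟨_, hv, e⟩ => ⟨smp hv, co_inj (e.trans (co_hull _).symm)⟩,
    fun ⟨S, e⟩ => ⟨_, ai_co S, by rw [e, co_hull]⟩⟩

theorem L_simplex (S : Affine.Simplex ℝ (EuclideanSpace ℝ (Fin n)) n) :
    L (convexHull ℝ (range S.points)) = rn n ^ (1 / (2 * (n : ℝ))) := by
  rw [L_co, isoConst_simplex (simplex_co.2 ⟨S, rfl⟩), isoConst, ratio_std]

theorem sect_euc {m : ℕ} (K : ConvexBody (EuclideanSpace ℝ (Fin (m + 1))))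
    (h3 : (interior (K : Set (EuclideanSpace ℝ (Fin (m + 1))))).Nonempty)
    (hL : L (K : Set (EuclideanSpace ℝ (Fin (m + 1)))) < Real.exp (-1)) :
    ∃ (u : EuclideanSpace ℝ (Fin (m + 1))) (t : ℝ), ‖u‖ = 1 ∧
      Real.exp 1 / √12 * volume.real (K : Set (EuclideanSpace ℝ (Fin (m + 1)))) ^
        ((m : ℝ) / (m + 1)) < μHE[m].real (↑K ∩ {x | inner ℝ u x = t}) := by
  have hB := body_co K h3
  rw [L_co] at hL
  have h0 : 0 ≤ isoConst (co (K : Set (EuclideanSpace ℝ (Fin (m + 1))))) :=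
    Real.rpow_nonneg (div_nonneg (cov_posDef hB).det_pos.le (sq_nonneg _)) _
  obtain ⟨O, hO, t, ht⟩ := sect hB (c := Real.exp 1 / √12) (by positivity) (by
    have h1 := mul_lt_mul_of_pos_left hL (Real.exp_pos 1)
    rw [← Real.exp_add, add_neg_cancel, Real.exp_zero] at h1
    have h2 := pow_lt_one₀ (by positivity) h1 two_ne_zero
    rw [div_pow, Real.sq_sqrt (by norm_num)]
    linarith [mul_pow (Real.exp 1) (isoConst (co (K : Set (EuclideanSpace ℝ (Fin (m + 1)))))) 2])
  have hO' : O * Oᵀ = 1 := mul_eq_one_comm.mp hO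
  have hn : ∀ w : Fin (m + 1) → ℝ, ∑ i, (O *ᵥ w) i ^ 2 = ∑ i, w i ^ 2 := fun w => by
    have : (O *ᵥ w) ⬝ᵥ (O *ᵥ w) = w ⬝ᵥ w := by
      rw [dotProduct_mulVec, vecMul_mulVec, hO, vecMul_one]
    simpa only [dotProduct, sq] using this
  let f : EuclideanSpace ℝ (Fin m) → EuclideanSpace ℝ (Fin (m + 1)) := fun y =>
    toLp 2 (O *ᵥ Fin.cons t (ofLp y))
  have hf : Isometry f := Isometry.of_dist_eq fun y z => by
    rw [EuclideanSpace.dist_eq, EuclideanSpace.dist_eq]
    congr 1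
    have := hn (Fin.cons t (ofLp y) - Fin.cons t (ofLp z))
    rw [mulVec_sub, eq_comm, Fin.sum_univ_succ] at this
    simpa [Real.dist_eq, f] using this.symm
  have hi : ∀ x : EuclideanSpace ℝ (Fin (m + 1)),
      inner ℝ (toLp 2 fun i => O i 0 : EuclideanSpace ℝ (Fin (m + 1))) x = (Oᵀ *ᵥ ofLp x) 0 := by
    intro x
    rw [EuclideanSpace.inner_eq_star_dotProduct, dotProduct_comm]
    rfl
  have hr : range f = {x | inner ℝ (toLp 2 fun i => O i 0 : EuclideanSpace ℝ (Fin (m + 1))) x = t} := by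
    ext x
    rw [mem_ofPred_eq, hi]
    constructor
    · rintro ⟨y, rfl⟩
      simp only [f]
      rw [mulVec_mulVec, hO, one_mulVec, Fin.cons_zero]
    · rintro rfl
      refine ⟨toLp 2 (Fin.tail (Oᵀ *ᵥ ofLp x)), ?_⟩
      simp only [f]
      rw [Fin.cons_self_tail, mulVec_mulVec, hO', one_mulVec]
  refine ⟨toLp 2 fun i => O i 0, t, ?_, ?_⟩
  · rw [EuclideanSpace.norm_eq, Real.sqrt_eq_one]
    have := congrFun (congrFun hO 0) 0
    simpa [Matrix.mul_apply, sq] using this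
  · rw [← hr, Measure.real, Measure.real, ← hf.euclideanHausdorffMeasure_preimage,
      EuclideanSpace.euclideanHausdorffMeasure_eq_volume, ← vol_co, ← vol_co]
    exact ht

theorem all_of (h : ∀ (n : ℕ) (K S : Set (Fin n → ℝ)), 1 ≤ n → IsConvexBody K → IsSimplex S →
    isoConst K ≤ isoConst S ∧ (isoConst K = isoConst S ↔ IsSimplex K)) :
    (∀ (n : ℕ) (K : ConvexBody (EuclideanSpace ℝ (Fin n)))
      (S : Affine.Simplex ℝ (EuclideanSpace ℝ (Fin n)) n), 1 ≤ n → (interior K.carrier).Nonempty →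
      L K.carrier ≤ L (convexHull ℝ (range S.points)) ∧
      (L K.carrier = L (convexHull ℝ (range S.points)) ↔
        ∃ T : Affine.Simplex ℝ (EuclideanSpace ℝ (Fin n)) n,
          K.carrier = convexHull ℝ (range T.points))) ∧
    (∀ (n : ℕ) (S : Affine.Simplex ℝ (EuclideanSpace ℝ (Fin n)) n), 1 ≤ n →
      L (convexHull ℝ (range S.points)) ^ (2 * n) =
        (n.factorial : ℝ) ^ 2 / (((n : ℝ) + 1) ^ (n + 1) * ((n : ℝ) + 2) ^ n) ∧
      L (convexHull ℝ (range S.points)) < Real.exp (-1)) ∧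
    IsLUB {x : ℝ | ∃ (n : ℕ) (K : ConvexBody (EuclideanSpace ℝ (Fin n))),
      1 ≤ n ∧ (interior K.carrier).Nonempty ∧ x = L K.carrier} (Real.exp (-1)) ∧
    (∀ (n : ℕ) (S : Affine.Simplex ℝ (EuclideanSpace ℝ (Fin n)) n) (ε : ℝ), 1 ≤ n → 0 < ε →
      ∃ δ : ℝ, 0 < δ ∧ ∀ K : ConvexBody (EuclideanSpace ℝ (Fin n)), (interior K.carrier).Nonempty →
        L (convexHull ℝ (range S.points)) - δ ≤ L K.carrier →
        ∃ (T : Affine.Simplex ℝ (EuclideanSpace ℝ (Fin n)) n) (z : EuclideanSpace ℝ (Fin n)),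
          convexHull ℝ (range T.points) ⊆ K.carrier ∧
          K.carrier ⊆ AffineMap.homothety z (1 + ε) '' convexHull ℝ (range T.points)) ∧
    (∀ (n : ℕ) (K : ConvexBody (EuclideanSpace ℝ (Fin n))) (p : EuclideanSpace ℝ (Fin n)) (D C : ℝ),
      1 ≤ n → (interior K.carrier).Nonempty → p ∈ K.carrier →
      D = (Matrix.of fun i j => ∫ x, (x i - p i) * (x j - p j) ∂cond volume K.carrier).det →
      C = ((n : ℝ) + 1) * (n.factorial : ℝ) ^ 2 / (((n : ℝ) + 1) * (n + 2)) ^ n *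
        volume.real K.carrier ^ 2 →
      D ≤ C ∧ (D = C ↔ ∃ T : Affine.Simplex ℝ (EuclideanSpace ℝ (Fin n)) n,
        K.carrier = convexHull ℝ (range T.points) ∧ p ∈ range T.points)) ∧
    ∀ (m : ℕ) (K : ConvexBody (EuclideanSpace ℝ (Fin (m + 1)))), (interior K.carrier).Nonempty →
      ∃ (u : EuclideanSpace ℝ (Fin (m + 1))) (t : ℝ), ‖u‖ = 1 ∧
        Real.exp 1 / √12 * volume.real K.carrier ^ ((m : ℝ) / (m + 1)) <
          μHE[m].real (K.carrier ∩ {x | inner ℝ u x = t}) := by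
  have hstd : ∀ n, IsSimplex (stdS n) := fun n => ⟨_, affineIndependent_stdV, stdS_eq_convexHull⟩
  have hlt : ∀ (n : ℕ) (K : ConvexBody (EuclideanSpace ℝ (Fin n))), 1 ≤ n →
      (interior K.carrier).Nonempty → L K.carrier < Real.exp (-1) := fun n K hn hK => by
    have h1 := (h n _ _ hn (body_co K hK) (hstd n)).1
    rw [isoConst.eq_1 (stdS n), ratio_std] at h1
    rw [L_co]
    exact h1.trans_lt (Ln_lt hn)
  refine ⟨fun n K S hn hK => ?_, fun n S hn => ⟨?_, ?_⟩, ⟨?_, fun c hc => ?_⟩,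
    fun n S ε hn hε => ?_, fun n K p D C hn hK hp hD hC => ?_,
    fun m K hK => sect_euc K hK (hlt _ K (by omega) hK)⟩
  · rw [L_co, L_co, ← simplex_co]
    exact h n _ _ hn (body_co K hK) (simplex_co.2 ⟨S, rfl⟩)
  · rw [L_simplex, pow_root hn (rn_pos n).le, rn, mul_pow]
    ring
  · rw [L_simplex]
    exact Ln_lt hn
  · rintro _ ⟨n, K, hn, hK, rfl⟩
    exact (hlt n K hn hK).le
  · refine not_lt.1 fun hlt' => ?_
    obtain ⟨n, hn, h1⟩ := exists_Ln hlt'
    set S := smp (affineIndependent_stdV (n := n))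
    refine absurd (hc ⟨n, ⟨convexHull ℝ (range S.points), convex_convexHull _ _,
      (finite_range _).isCompact_convexHull ℝ, (range_nonempty _).convexHull⟩, hn, ?_,
      (L_simplex S).symm⟩) (not_le.2 h1)
    have h2 : ctr n ∈ interior (co (convexHull ℝ (range S.points))) := by
      rw [co_hull]
      exact mem_interior_iff_mem_nhds.2 (mem_of_superset (Metric.closedBall_mem_nhds _
        (by positivity)) (ball_sub.trans stdS_eq_convexHull.subset))
    exact ⟨_, ((eqv n).toHomeomorph.preimage_interior _).superset h2⟩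
  · obtain ⟨δ, hδ, H⟩ := stab (fun K S => h n K S hn) hε
    refine ⟨δ, hδ, fun K hK hL => ?_⟩
    rw [L_co, L_co, isoConst_simplex (simplex_co.2 ⟨S, rfl⟩)] at hL
    obtain ⟨_, z, ⟨v, hv, rfl⟩, h1, h2⟩ := H _ (body_co K hK) hL
    have e : convexHull ℝ (range v) = co (convexHull ℝ (range (smp hv).points)) := (co_hull _).symm
    rw [e] at h1 h2
    refine ⟨smp hv, toLp 2 z, fun x hx => h1 (a := ofLp x) hx, fun x hx => ?_⟩
    obtain ⟨w, hw, ew⟩ := h2 (ofLp x) hx
    refine ⟨toLp 2 w, hw, ?_⟩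
    rw [AffineMap.homothety_apply, vsub_eq_sub, vadd_eq_add, add_comm]
    exact (congrArg (toLp 2) ew).symm
  · have hB := body_co K hK
    have hV := pow_pos (vol_pos hB) 2
    obtain ⟨h1, h2⟩ := rbp hn (slice_of hn fun K S => h n K S hn) hB (p := ofLp p) hp
    have e1 : D = (mom (co K.carrier) (ofLp p)).det := by
      rw [hD]
      congr 1
      ext i j
      rw [of_apply, int_co]
      rfl
    have e2 : C = rn n * (n + 1) ^ 2 * (volume (co K.carrier)).toReal ^ 2 := by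
      rw [hC, vol_co, rn, Measure.real]
      field_simp
    rw [div_le_iff₀ hV] at h1
    rw [div_eq_iff hV.ne'] at h2
    rw [e1, e2]
    refine ⟨h1, h2.trans ⟨?_, ?_⟩⟩
    · rintro ⟨v, hv, e, k, hk⟩
      exact ⟨smp hv, co_inj (e.trans (co_hull _).symm), k, congrArg (toLp 2) hk⟩
    · rintro ⟨T, e, k, rfl⟩
      exact ⟨_, ai_co T, (congrArg co e).trans (co_hull _), k, rfl⟩

end Vale.Agent.N254B
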